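import Vale.Agent.P066.Lab.LSW.Antis
import Vale.Agent.P066.Lab.H402.Super

/-!
# [LSW] Signs, part 1: the sign of the permutation of the particles exchanging two blocks
-/

set_option autoImplicit false
set_option linter.unusedSectionVars false

open Finset MvPolynomial

namespace Vale.Agent.P066.Lab.LSW

open Vale.Agent.P066.Lab

noncomputable section

variable {n r : ℕ}

/-- identification of the particle sets of two equal classes -/
def ptC {d d' : Fin n →₀ ℕ} (h : d = d') : Pt d ≃ Pt d' :=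
  Equiv.sigmaCongrRight fun i => finCongr (DFunLike.congr_fun h i)

@[simp] theorem ptC_rfl {d : Fin n →₀ ℕ} (p : Pt d) : ptC (rfl : d = d) p = p := by
  obtain ⟨i, x⟩ := p
  simp [ptC]

@[simp] theorem ptC_fst {d d' : Fin n →₀ ℕ} (h : d = d') (p : Pt d) : (ptC h p).1 = p.1 := rfl

theorem ptC_trans {d d' d'' : Fin n →₀ ℕ} (h : d = d') (h' : d' = d'') (p : Pt d) :
    ptC h' (ptC h p) = ptC (h.trans h') p := rfl

/-- the permutation of the particles which moves the block `j` to the block `τ j` -/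
def bP (D : Fin r → Fin n →₀ ℕ) (τ : Equiv.Perm (Fin r)) (h : ∀ j, D (τ j) = D j) :
    Equiv.Perm (SW D) :=
  Equiv.sigmaCongr τ fun j => ptC (h j).symm

@[simp] theorem bP_apply (D : Fin r → Fin n →₀ ℕ) (τ : Equiv.Perm (Fin r))
    (h : ∀ j, D (τ j) = D j) (s : SW D) : bP D τ h s = ⟨τ s.1, ptC (h s.1).symm s.2⟩ := rfl

@[simp] theorem bP_fst (D : Fin r → Fin n →₀ ℕ) (τ : Equiv.Perm (Fin r))
    (h : ∀ j, D (τ j) = D j) (s : SW D) : (bP D τ h s).1 = τ s.1 := rfl

theorem tyW_bP (D : Fin r → Fin n →₀ ℕ) (τ : Equiv.Perm (Fin r))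
    (h : ∀ j, D (τ j) = D j) (s : SW D) : tyW D (bP D τ h s) = tyW D s := rfl

theorem bP_mem_TP (D : Fin r → Fin n →₀ ℕ) (τ : Equiv.Perm (Fin r))
    (h : ∀ j, D (τ j) = D j) : bP D τ h ∈ Theta.H422.TP (tyW D) :=
  (Theta.H422.mem_TP _ _).2 fun s => tyW_bP D τ h s

theorem bP_one (D : Fin r → Fin n →₀ ℕ) (h : ∀ j, D ((1 : Equiv.Perm (Fin r)) j) = D j) :
    bP D 1 h = 1 := by
  refine Equiv.ext fun s => ?_
  rw [bP_apply]
  exact Sigma.ext rfl (heq_of_eq (ptC_rfl _))

theorem mk_ptC {D : Fin r → Fin n →₀ ℕ} {i j : Fin r} (hij : i = j) (h : D i = D j) (p : Pt (D i)) :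
    (⟨j, ptC h p⟩ : SW D) = ⟨i, p⟩ := by
  subst hij
  simp

theorem bP_mul (D : Fin r → Fin n →₀ ℕ) (σ τ : Equiv.Perm (Fin r)) (hσ : ∀ j, D (σ j) = D j)
    (hτ : ∀ j, D (τ j) = D j) (h : ∀ j, D ((σ * τ) j) = D j) :
    bP D (σ * τ) h = bP D σ hσ * bP D τ hτ := by
  refine Equiv.ext fun s => ?_
  rw [Equiv.Perm.mul_apply, bP_apply, bP_apply, bP_apply]
  rfl

theorem card_Pt (d : Fin n →₀ ℕ) : Fintype.card (Pt d) = Theta.deg d := by
  simp [Theta.deg, Fintype.card_sigma]

/-- (SG1) the sign of the exchange of two blocks of the same class -/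
theorem sign_bP_swap (D : Fin r → Fin n →₀ ℕ) {i j : Fin r} (hij : i ≠ j)
    (h : ∀ k, D (Equiv.swap i j k) = D k) :
    Equiv.Perm.sign (bP D (Equiv.swap i j) h) = (-1) ^ Theta.deg (D i) := by
  classical
  have h2 : bP D (Equiv.swap i j) h ^ 2 = 1 := by
    rw [sq, ← bP_mul D _ _ h h (by intro k; rw [Equiv.swap_mul_self]; rfl)]
    have key : ∀ (τ : Equiv.Perm (Fin r)) (hτ : ∀ k, D (τ k) = D k), τ = 1 → bP D τ hτ = 1 := by
      rintro τ hτ rfl
      exact bP_one D hτ
    exact key _ _ (Equiv.swap_mul_self i j)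
  rw [Equiv.Perm.sign_of_pow_two_eq_one h2]
  congr 1
  have hDij : D j = D i := by have := h i; rwa [Equiv.swap_apply_left] at this
  -- fixed points
  have hfix : ∀ s : SW D, s ∈ Function.fixedPoints (bP D (Equiv.swap i j) h) ↔
      s.1 ≠ i ∧ s.1 ≠ j := by
    intro s
    rw [Function.mem_fixedPoints, Function.IsFixedPt, bP_apply]
    constructor
    · intro hs
      have h1 : Equiv.swap i j s.1 = s.1 := congrArg Sigma.fst hs
      constructor
      · intro h3
        rw [h3, Equiv.swap_apply_left] at h1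
        exact hij h1.symm
      · intro h3
        rw [h3, Equiv.swap_apply_right] at h1
        exact hij h1
    · rintro ⟨h3, h4⟩
      have h1 : Equiv.swap i j s.1 = s.1 := Equiv.swap_apply_of_ne_of_ne h3 h4
      exact mk_ptC h1.symm _ s.2
  have hcard : Fintype.card (Function.fixedPoints (bP D (Equiv.swap i j) h)) =
      ∑ k ∈ (univ.erase i).erase j, Theta.deg (D k) := by
    rw [Fintype.card_congr (β := {s : SW D // s.1 ≠ i ∧ s.1 ≠ j})
      (Equiv.subtypeEquivRight hfix), Fintype.card_subtype]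
    have : (univ.filter fun s : SW D => s.1 ≠ i ∧ s.1 ≠ j) =
        ((univ.erase i).erase j).sigma fun k => (univ : Finset (Pt (D k))) := by
      ext s
      simp [and_comm]
    rw [this, card_sigma]
    exact sum_congr rfl fun k _ => by rw [card_univ, card_Pt]
  have htot : Fintype.card (SW D) = ∑ k, Theta.deg (D k) := by
    rw [Fintype.card_sigma]
    exact sum_congr rfl fun k _ => card_Pt _
  rw [hcard, htot, ← add_sum_erase univ _ (mem_univ i),
    ← add_sum_erase (univ.erase i) _ (mem_erase.2 ⟨hij.symm, mem_univ j⟩), hDij]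
  omega

end

end Vale.Agent.P066.Lab.LSW
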