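import Vale.Agent.P066.Lab.H473.SG1
import Vale.Agent.P066.Lab.H362.Eq2

/-!
# [LSW] Signs, part 2: parity of the number of arrows between inverted blocks

`NN Q τ` = weighted number (mod 2) of the inversions of `τ`; it is additive in `τ` on the
permutations preserving `Q`, and equals `Q i j` for the exchange of `i` and `j`.
-/

set_option autoImplicit false
set_option linter.unusedSectionVars false

open Finset MvPolynomial

namespace Vale.Agent.P066.Lab.LSW

open Vale.Agent.P066.Lab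

section NN

variable {r : ℕ}

/-- `1` if the pair is inverted -/
def iv (τ : Equiv.Perm (Fin r)) (p : Fin r × Fin r) : ZMod 2 := if τ p.2 < τ p.1 then 1 else 0

/-- the sorted image of a pair -/
def srt (τ : Equiv.Perm (Fin r)) (p : Fin r × Fin r) : Fin r × Fin r :=
  if τ p.1 < τ p.2 then (τ p.1, τ p.2) else (τ p.2, τ p.1)

theorem srt_lt (τ : Equiv.Perm (Fin r)) {p : Fin r × Fin r} (hp : p.1 < p.2) :
    (srt τ p).1 < (srt τ p).2 := by
  unfold srt
  split_ifs with h
  · exact h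
  · exact lt_of_le_of_ne (not_lt.1 h) fun h' => hp.ne (τ.injective h'.symm)

theorem srt_inv (τ : Equiv.Perm (Fin r)) {p : Fin r × Fin r} (hp : p.1 < p.2) :
    srt τ⁻¹ (srt τ p) = p := by
  unfold srt
  by_cases h : τ p.1 < τ p.2
  · simp [h, hp]
  · simp [h, not_lt.2 hp.le]

theorem iv_mul (σ τ : Equiv.Perm (Fin r)) {p : Fin r × Fin r} (hp : p.1 < p.2) :
    iv (σ * τ) p = iv σ (srt τ p) + iv τ p := by
  have hne : σ (τ p.1) ≠ σ (τ p.2) := fun h => hp.ne (τ.injective (σ.injective h))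
  have hne' : τ p.1 ≠ τ p.2 := fun h => hp.ne (τ.injective h)
  rcases lt_or_gt_of_ne hne' with h | h
  · have e1 : srt τ p = (τ p.1, τ p.2) := if_pos h
    have e2 : iv τ p = 0 := if_neg (not_lt.2 h.le)
    rw [e1, e2, add_zero]
    rfl
  · have e1 : srt τ p = (τ p.2, τ p.1) := if_neg (not_lt.2 h.le)
    have e2 : iv τ p = 1 := if_pos h
    rw [e1, e2]
    rcases lt_or_gt_of_ne hne with h' | h'
    · have e3 : iv (σ * τ) p = 0 := if_neg (not_lt.2 h'.le)
      have e4 : iv σ (τ p.2, τ p.1) = 1 := if_pos h'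
      rw [e3, e4]
      decide
    · have e3 : iv (σ * τ) p = 1 := if_pos h'
      have e4 : iv σ (τ p.2, τ p.1) = 0 := if_neg (not_lt.2 h'.le)
      rw [e3, e4, zero_add]

/-- weighted number of inversions modulo two -/
def NN (Q : Fin r → Fin r → ℕ) (τ : Equiv.Perm (Fin r)) : ZMod 2 :=
  ∑ p ∈ univ.filter (fun p : Fin r × Fin r => p.1 < p.2), iv τ p * (Q p.1 p.2 : ZMod 2)

theorem Q_srt {Q : Fin r → Fin r → ℕ} (hQ : ∀ i j, Q i j = Q j i) {τ : Equiv.Perm (Fin r)}
    (hτ : ∀ i j, Q (τ i) (τ j) = Q i j) (p : Fin r × Fin r) :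
    Q (srt τ p).1 (srt τ p).2 = Q p.1 p.2 := by
  unfold srt
  split_ifs with h
  · exact hτ _ _
  · rw [hτ, hQ]

theorem NN_mul {Q : Fin r → Fin r → ℕ} (hQ : ∀ i j, Q i j = Q j i) (σ τ : Equiv.Perm (Fin r))
    (hτ : ∀ i j, Q (τ i) (τ j) = Q i j) : NN Q (σ * τ) = NN Q σ + NN Q τ := by
  unfold NN
  have h1 : ∑ p ∈ univ.filter (fun p : Fin r × Fin r => p.1 < p.2),
      iv (σ * τ) p * (Q p.1 p.2 : ZMod 2) =
      ∑ p ∈ univ.filter (fun p : Fin r × Fin r => p.1 < p.2),
        (iv σ (srt τ p) * (Q (srt τ p).1 (srt τ p).2 : ZMod 2) + iv τ p * (Q p.1 p.2 : ZMod 2)) := by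
    refine sum_congr rfl fun p hp => ?_
    rw [mem_filter] at hp
    rw [iv_mul σ τ hp.2, Q_srt hQ hτ]
    ring
  rw [h1, sum_add_distrib]
  congr 1
  refine sum_nbij' (srt τ) (srt τ⁻¹) ?_ ?_ ?_ ?_ ?_
  · intro p hp
    rw [mem_filter] at hp ⊢
    exact ⟨mem_univ _, srt_lt τ hp.2⟩
  · intro p hp
    rw [mem_filter] at hp ⊢
    exact ⟨mem_univ _, srt_lt τ⁻¹ hp.2⟩
  · intro p hp
    rw [mem_filter] at hp
    exact srt_inv τ hp.2
  · intro p hp
    rw [mem_filter] at hp
    have := srt_inv τ⁻¹ hp.2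
    rwa [inv_inv] at this
  · intro p _
    rfl

theorem iv_one {p : Fin r × Fin r} (hp : p.1 < p.2) : iv (1 : Equiv.Perm (Fin r)) p = 0 :=
  if_neg (not_lt.2 hp.le)

theorem NN_one (Q : Fin r → Fin r → ℕ) : NN Q 1 = 0 := by
  unfold NN
  refine sum_eq_zero fun p hp => ?_
  rw [mem_filter] at hp
  rw [iv_one hp.2, zero_mul]

theorem two_eq_zero' (x : ZMod 2) : x + x = 0 := CharTwo.add_self_eq_zero x

theorem NN_swap_lt {Q : Fin r → Fin r → ℕ} (hQ : ∀ i j, Q i j = Q j i) {i j : Fin r} (hij : i < j)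
    (hτ : ∀ k l, Q (Equiv.swap i j k) (Equiv.swap i j l) = Q k l) :
    NN Q (Equiv.swap i j) = (Q i j : ZMod 2) := by
  unfold NN
  have hmem : (i, j) ∈ univ.filter (fun p : Fin r × Fin r => p.1 < p.2) := by simp [hij]
  rw [← add_sum_erase _ _ hmem]
  have h0 : iv (Equiv.swap i j) (i, j) = 1 := by simp [iv, hij]
  have hinv : ∀ p : Fin r × Fin r, p.1 < p.2 →
      iv (Equiv.swap i j) (srt (Equiv.swap i j) p) = iv (Equiv.swap i j) p := by
    intro p hp
    have h1 := iv_mul (Equiv.swap i j) (Equiv.swap i j) hp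
    rw [Equiv.swap_mul_self, iv_one hp] at h1
    have h2 := two_eq_zero' (iv (Equiv.swap i j) p)
    exact add_right_cancel (h1.symm.trans h2.symm)
  have hfix : ∀ p : Fin r × Fin r, p.1 < p.2 → iv (Equiv.swap i j) p ≠ 0 →
      srt (Equiv.swap i j) p = p → p = (i, j) := by
    intro p hp h1 h2
    have h3 : Equiv.swap i j p.2 < Equiv.swap i j p.1 := by
      by_contra hc
      exact h1 (by simp [iv, hc])
    unfold srt at h2
    rw [if_neg (not_lt.2 h3.le)] at h2
    have h4 : Equiv.swap i j p.2 = p.1 := congrArg Prod.fst h2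
    have h5 : Equiv.swap i j p.1 = p.2 := congrArg Prod.snd h2
    rcases eq_or_ne p.1 i with h6 | h6
    · rw [h6, Equiv.swap_apply_left] at h5
      exact Prod.ext h6 h5.symm
    · rcases eq_or_ne p.1 j with h7 | h7
      · rw [h7, Equiv.swap_apply_right] at h5
        rw [h7, ← h5] at hp
        exact absurd hp (not_lt.2 hij.le)
      · rw [Equiv.swap_apply_of_ne_of_ne h6 h7] at h5
        exact absurd h5 hp.ne
  have hz : ∑ p ∈ (univ.filter (fun p : Fin r × Fin r => p.1 < p.2)).erase (i, j),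
      iv (Equiv.swap i j) p * (Q p.1 p.2 : ZMod 2) = 0 := by
    refine sum_involution (fun p _ => srt (Equiv.swap i j) p) ?_ ?_ ?_ ?_
    · intro p hp
      rw [mem_erase, mem_filter] at hp
      rw [hinv p hp.2.2, Q_srt hQ hτ]
      exact two_eq_zero' _
    · intro p hp h1 h2
      rw [mem_erase, mem_filter] at hp
      exact hp.1 (hfix p hp.2.2 (fun h => h1 (by rw [h, zero_mul])) h2)
    · intro p hp
      rw [mem_erase, mem_filter] at hp ⊢
      refine ⟨?_, mem_univ _, srt_lt _ hp.2.2⟩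
      intro h1
      have h2 := srt_inv (Equiv.swap i j) hp.2.2
      rw [h1, Equiv.swap_inv] at h2
      have h3 : srt (Equiv.swap i j) (i, j) = (i, j) := by
        simp [srt, not_lt.2 hij.le]
      exact hp.1 (h2.symm.trans h3)
    · intro p hp
      rw [mem_erase, mem_filter] at hp
      have h2 := srt_inv (Equiv.swap i j) hp.2.2
      rwa [Equiv.swap_inv] at h2
  rw [hz, add_zero, h0, one_mul]

/-- the exchange of two indices -/
theorem NN_swap {Q : Fin r → Fin r → ℕ} (hQ : ∀ i j, Q i j = Q j i) {i j : Fin r} (hij : i ≠ j)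
    (hτ : ∀ k l, Q (Equiv.swap i j k) (Equiv.swap i j l) = Q k l) :
    NN Q (Equiv.swap i j) = (Q i j : ZMod 2) := by
  rcases lt_or_gt_of_ne hij with h | h
  · exact NN_swap_lt hQ h hτ
  · rw [Equiv.swap_comm] at hτ ⊢
    rw [NN_swap_lt hQ h hτ, hQ]

theorem neg_one_pow_congr {N M : ℕ} (h : (N : ZMod 2) = (M : ZMod 2)) :
    ((-1 : ℤˣ)) ^ N = (-1) ^ M := by
  have h1 : N % 2 = M % 2 := (ZMod.natCast_eq_natCast_iff' N M 2).1 h
  rw [Int.units_pow_eq_pow_mod_two, h1, ← Int.units_pow_eq_pow_mod_two]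

end NN

noncomputable section

variable {n r : ℕ} {a : Fin n → Fin n → ℕ} {θ : Fin n → ℤ}

theorem sum_Pt (d : Fin n →₀ ℕ) (g : Fin n → ℕ) : ∑ x : Pt d, g x.1 = ∑ i, d i * g i := by
  rw [Fintype.sum_sigma]
  refine sum_congr rfl fun i _ => ?_
  simp

theorem sum_Pt_Pt (a : Fin n → Fin n → ℕ) (d e : Fin n →₀ ℕ) :
    ∑ x : Pt d, ∑ y : Pt e, a x.1 y.1 = arD a d e := by
  have h1 : ∀ x : Pt d, ∑ y : Pt e, a x.1 y.1 = (fun i => ∑ j, e j * a i j) x.1 := fun x =>
    sum_Pt e (a x.1)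
  rw [sum_congr rfl fun x _ => h1 x, sum_Pt d (fun i => ∑ j, e j * a i j)]
  unfold arD
  refine sum_congr rfl fun i _ => ?_
  rw [mul_sum]
  exact sum_congr rfl fun j _ => by ring

/-- the number of arrows between inverted blocks, by classes -/
theorem invN_eq (a : Fin n → Fin n → ℕ) (D : Fin r → Fin n →₀ ℕ) (τ : Equiv.Perm (Fin r))
    (σ : ℕ → ℕ) (hσ : ∀ j : Fin r, σ j = τ j) :
    invN (aT a (tyW D)) σ (cW D) =
      ∑ p ∈ univ.filter (fun p : Fin r × Fin r => p.1 < p.2 ∧ τ p.2 < τ p.1),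
        arD a (D p.1) (D p.2) := by
  have hc : ∀ s t : SW D, (cW D s < cW D t ∧ σ (cW D t) < σ (cW D s)) ↔
      (s.1 < t.1 ∧ τ t.1 < τ s.1) := by
    intro s t
    unfold cW
    rw [hσ, hσ]
    exact Iff.rfl
  unfold invN
  rw [sum_filter, sum_filter, Fintype.sum_prod_type, Fintype.sum_prod_type, Fintype.sum_sigma]
  refine sum_congr rfl fun i _ => ?_
  have h1 : ∀ x : Pt (D i), ∑ t : SW D,
      (if cW D ⟨i, x⟩ < cW D t ∧ σ (cW D t) < σ (cW D ⟨i, x⟩) then
        aT a (tyW D) ⟨i, x⟩ t else 0) =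
      ∑ j, ∑ y : Pt (D j), if (i < j ∧ τ j < τ i) then a x.1 y.1 else 0 := by
    intro x
    rw [Fintype.sum_sigma]
    refine sum_congr rfl fun j _ => sum_congr rfl fun y _ => ?_
    simp only [hc]
  rw [sum_congr rfl fun x _ => h1 x, sum_comm]
  refine sum_congr rfl fun j _ => ?_
  by_cases h : i < j ∧ τ j < τ i
  · simp only [h, and_self, if_true]
    exact sum_Pt_Pt a (D i) (D j)
  · simp only [h, if_false, sum_const_zero]

theorem invN_cast (a : Fin n → Fin n → ℕ) (D : Fin r → Fin n →₀ ℕ) (τ : Equiv.Perm (Fin r))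
    (σ : ℕ → ℕ) (hσ : ∀ j : Fin r, σ j = τ j) :
    (invN (aT a (tyW D)) σ (cW D) : ZMod 2) = NN (fun i j => arD a (D i) (D j)) τ := by
  rw [invN_eq a D τ σ hσ, NN, ← filter_filter, sum_filter]
  push_cast
  refine sum_congr rfl fun p _ => ?_
  unfold iv
  split_ifs <;> simp

/-- (SG2) the sign of `PU` for the exchange of two blocks of the same class -/
theorem neg_one_pow_invN_swap
    (D : Fin r → Fin n →₀ ℕ)
    (hD : ∀ k l, arD a (D k) (D l) = arD a (D l) (D k)) {i j : Fin r} (hij : i ≠ j)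
    (h : D i = D j) (σ : ℕ → ℕ) (hσ : ∀ k : Fin r, σ k = Equiv.swap i j k) :
    (-1 : ℤˣ) ^ invN (aT a (tyW D)) σ (cW D) = (-1) ^ arD a (D i) (D i) := by
  apply neg_one_pow_congr
  rw [invN_cast a D (Equiv.swap i j) σ hσ, NN_swap hD hij ?_, h]
  have h1 : ∀ k, D (Equiv.swap i j k) = D k := by
    intro k
    rcases eq_or_ne k i with rfl | hi
    · rw [Equiv.swap_apply_left, h]
    · rcases eq_or_ne k j with rfl | hj
      · rw [Equiv.swap_apply_right, h]
      · rw [Equiv.swap_apply_of_ne_of_ne hi hj]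
  intro k l
  simp only [h1]

/-- the general (SG): for a permutation `τ` of the blocks which preserves a labelling `f` of the
blocks (the letters), such that no label with `deg + arD` odd is repeated -/
theorem chi_eq_one {X : Type*} (f : Fin r → X) (D : Fin r → Fin n →₀ ℕ)
    (hf : ∀ i j, f i = f j → D i = D j)
    (hD : ∀ k l, arD a (D k) (D l) = arD a (D l) (D k))
    (hgood : ∀ i j, i ≠ j → f i = f j → Even (Theta.deg (D i) + arD a (D i) (D i)))
    (τ : Equiv.Perm (Fin r)) (hτ : ∀ j, f (τ j) = f j) (σ : ℕ → ℕ)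
    (hσ : ∀ k : Fin r, σ k = τ k) :
    Equiv.Perm.sign (bP D τ fun j => hf _ _ (hτ j)) * (-1) ^ invN (aT a (tyW D)) σ (cW D) = 1 := by
  -- a canonical extension of a permutation of `Fin r` to `ℕ`
  have key : ∀ τ : Equiv.Perm (Fin r), τ ∈ H402.HG f → ∀ h : ∀ j, D (τ j) = D j,
      ∀ N : ℕ, (N : ZMod 2) = NN (fun i j => arD a (D i) (D j)) τ →
        Equiv.Perm.sign (bP D τ h) * (-1) ^ N = 1 := by
    intro τ hτ
    refine H402.HG_induction f (fun τ => ∀ h : ∀ j, D (τ j) = D j,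
      ∀ N : ℕ, (N : ZMod 2) = NN (fun i j => arD a (D i) (D j)) τ →
        Equiv.Perm.sign (bP D τ h) * (-1) ^ N = 1) ?_ ?_ τ hτ
    · intro h N hN
      rw [NN_one] at hN
      have e1 : ((-1 : ℤˣ)) ^ N = (-1) ^ 0 := neg_one_pow_congr (by rw [hN]; simp)
      rw [bP_one, Equiv.Perm.sign_one, one_mul, e1, pow_zero]
    · intro i j σ hij hne hσ ih h N hN
      have h1 : ∀ k, D (Equiv.swap i j k) = D k := by
        intro k
        rcases eq_or_ne k i with rfl | hi
        · rw [Equiv.swap_apply_left, hf _ _ hij]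
        · rcases eq_or_ne k j with rfl | hj
          · rw [Equiv.swap_apply_right, hf _ _ hij]
          · rw [Equiv.swap_apply_of_ne_of_ne hi hj]
      have h2 : ∀ k, D (σ k) = D k := fun k => hf _ _ (hσ k)
      rw [NN_mul hD _ _ (fun k l => by simp only [h2]),
        NN_swap hD hne (fun k l => by simp only [h1])] at hN
      obtain ⟨M, hM⟩ : ∃ M : ℕ, (M : ZMod 2) = NN (fun i j => arD a (D i) (D j)) σ :=
        ⟨_, ZMod.natCast_zmod_val _⟩
      have e1 : ((-1 : ℤˣ)) ^ N = (-1) ^ (arD a (D i) (D j) + M) :=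
        neg_one_pow_congr (by rw [hN, ← hM]; push_cast; rfl)
      rw [bP_mul D _ _ h1 h2, Equiv.Perm.sign_mul, sign_bP_swap D hne, e1, pow_add,
        mul_mul_mul_comm, ih h2 M hM, mul_one, ← pow_add, ← hf _ _ hij]
      exact Even.neg_one_pow (hgood i j hne hij)
  exact key τ hτ _ _ (invN_cast a D τ σ hσ)

end

end Vale.Agent.P066.Lab.LSW
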